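import Mathlib
import Vale.Agent.Lib.P131.Transport

/-!
# P131 (the hyperinvariant subspace problem): Q1 is false on every Hilbert space

Both formulations of the question, for a separable infinite-dimensional complex Hilbert space `H`.
First: it is not true that every nonscalar `T ∈ B(H)` has a nontrivial closed hyperinvariant
subspace. Second, with closed subspaces replaced by the orthogonal projections onto them: there is
a nonscalar `T ∈ B(H)` such that only the projections `0` and `1` are invariant under the
commutant of `T`.
-/

namespace Vale.Agent.Results.P131.Disproof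

/-- Q1 is false on every separable infinite-dimensional complex Hilbert space `H`. -/
theorem result (H : Type*) [NormedAddCommGroup H] [InnerProductSpace ℂ H] [CompleteSpace H]
    [TopologicalSpace.SeparableSpace H] (hH : ¬ FiniteDimensional ℂ H) :
    -- it is not true that every nonscalar `T` has a closed subspace `M`, invariant under all `A`
    -- commuting with `T`, with `M ≠ {0}` and `M ≠ H`
    (¬ ∀ T : H →L[ℂ] H, (¬ ∃ c : ℂ, T = c • 1) →
      ∃ M : Submodule ℂ H, IsClosed (M : Set H) ∧
        (∀ A : H →L[ℂ] H, A * T = T * A → ∀ x ∈ M, A x ∈ M) ∧ M ≠ ⊥ ∧ M ≠ ⊤) ∧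
    -- some nonscalar `T` has no orthogonal projection `P` other than `0` and `1` whose range is
    -- invariant under all `A` commuting with `T`
    (∃ T : H →L[ℂ] H, (¬ ∃ c : ℂ, T = c • 1) ∧
      ∀ P : H →L[ℂ] H, IsStarProjection P →
        (∀ A : H →L[ℂ] H, A * T = T * A → P * (A * P) = A * P) → P = 0 ∨ P = 1) := by
  obtain ⟨T, hT, hM⟩ := Vale.Agent.P131.exists_general H hH
  have hT' : ¬ ∃ c : ℂ, T = c • 1 := by
    rintro ⟨c, hc⟩
    exact hT c hc
  refine ⟨fun hall => ?_, T, hT', fun P hP hA => ?_⟩
  · obtain ⟨M, hMc, hinv, hbot, htop⟩ := hall T hT'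
    rcases hM M hMc (fun A hAT => hinv A hAT) with h | h
    · exact hbot h
    · exact htop h
  · have hPP : ∀ x, P (P x) = P x := fun x => by
      have := hP.isIdempotentElem
      exact DFunLike.congr_fun this x
    let M : Submodule ℂ H := LinearMap.range (P : H →ₗ[ℂ] H)
    have hmem : ∀ x, x ∈ M ↔ P x = x := by
      intro x
      constructor
      · rintro ⟨y, rfl⟩
        exact hPP y
      · intro h
        exact ⟨x, h⟩
    have hMc : IsClosed (M : Set H) := by
      have : (M : Set H) = {x | P x = x} := by
        ext x
        exact hmem x
      rw [this]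
      exact isClosed_eq P.continuous continuous_id
    rcases hM M hMc (fun A hAT x hx => by
      rw [hmem] at hx ⊢
      have h1 : P (A (P x)) = A (P x) := DFunLike.congr_fun (hA A hAT) x
      rwa [hx] at h1) with h | h
    · left
      ext x
      have : P x ∈ M := ⟨x, rfl⟩
      rw [h] at this
      simpa using this
    · right
      ext x
      have : x ∈ M := by rw [h]; trivial
      exact (hmem x).1 this

end Vale.Agent.Results.P131.Disproof
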