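import Mathlib
import Vale.Agent.Lib.P131.Transport

universe u

/-- Negative solution of the hyperinvariant subspace problem: every separable
infinite-dimensional complex Hilbert space carries a nonscalar bounded operator whose only closed
hyperinvariant subspaces are zero and the whole space. -/
theorem Vale.Agent.Results.P131.NoHyperinvariant.result
    (H : Type u) [NormedAddCommGroup H] [InnerProductSpace ℂ H] [CompleteSpace H]
    [TopologicalSpace.SeparableSpace H] (hH : ¬ FiniteDimensional ℂ H) :
    ∃ T : H →L[ℂ] H, (∀ c : ℂ, T ≠ c • ContinuousLinearMap.id ℂ H) ∧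
      ∀ M : Submodule ℂ H, IsClosed (M : Set H) →
        (∀ A : H →L[ℂ] H, A.comp T = T.comp A → ∀ x ∈ M, A x ∈ M) → M = ⊥ ∨ M = ⊤ :=
  Vale.Agent.P131.exists_general H hH
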