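import Mathlib
import Vale.Agent.Lib.P131.Transport

/-!
# P131: nonscalar operators on Hilbert space with transitive commutant
-/

namespace Vale.Agent.Results.P131.TransitiveCommutant

variable {H : Type*} [NormedAddCommGroup H] [InnerProductSpace ℂ H]

/-- The commutant of a bounded operator `T`, as a subalgebra of `B(H)`. -/
def commutant (T : H →L[ℂ] H) : Subalgebra ℂ (H →L[ℂ] H) := Subalgebra.centralizer ℂ {T}

/-- A subalgebra of `B(H)` is transitive if the only closed subspaces invariant under all its members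
are `0` and `H`. -/
def IsTransitive (𝒜 : Subalgebra ℂ (H →L[ℂ] H)) : Prop :=
  ∀ M : Submodule ℂ H, IsClosed (M : Set H) → (∀ A ∈ 𝒜, ∀ x ∈ M, A x ∈ M) → M = ⊥ ∨ M = ⊤

/-- Negative answer to the hyperinvariant subspace problem: on every separable infinite-dimensional
complex Hilbert space there is a bounded operator `T`, not a scalar multiple of the identity, whose
commutant is transitive; and every orbit `{A x : A T = T A}` of a nonzero vector is dense. -/
theorem result (H : Type*) [NormedAddCommGroup H] [InnerProductSpace ℂ H] [CompleteSpace H]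
    [TopologicalSpace.SeparableSpace H] (hH : ¬ FiniteDimensional ℂ H) :
    ∃ T : H →L[ℂ] H, (∀ c : ℂ, T ≠ c • 1) ∧ IsTransitive (commutant T) ∧
      ∀ x : H, x ≠ 0 → ∀ (y : H) (ε : ℝ), 0 < ε → ∃ A ∈ commutant T, ‖A x - y‖ < ε := by
  obtain ⟨T, hT, hM⟩ := Vale.Agent.P131.exists_general H hH
  have hmem : ∀ A : H →L[ℂ] H, A ∈ commutant T ↔ A.comp T = T.comp A := by
    intro A
    unfold commutant
    rw [Subalgebra.mem_centralizer_iff]
    constructor
    · intro h
      exact (h T rfl).symm
    · rintro h _ rfl
      exact h.symm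
  have key : IsTransitive (commutant T) := by
    intro M hMc hA
    exact hM M hMc fun A hAT x hx => hA A ((hmem A).2 hAT) x hx
  refine ⟨T, fun c hc => hT c hc, key, ?_⟩
  intro x hx y ε hε
  let N : Submodule ℂ H :=
    { carrier := {z | ∃ A ∈ commutant T, A x = z}
      add_mem' := by
        rintro _ _ ⟨A, hA, rfl⟩ ⟨B, hB, rfl⟩
        exact ⟨A + B, add_mem hA hB, rfl⟩
      zero_mem' := ⟨0, zero_mem _, rfl⟩
      smul_mem' := by
        rintro c _ ⟨A, hA, rfl⟩
        exact ⟨c • A, (commutant T).smul_mem hA c, rfl⟩ }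
  have hN : N.topologicalClosure = ⊥ ∨ N.topologicalClosure = ⊤ := by
    refine key _ N.isClosed_topologicalClosure ?_
    intro A hA
    have h1 : N.topologicalClosure ≤ N.topologicalClosure.comap (A : H →ₗ[ℂ] H) := by
      refine Submodule.topologicalClosure_minimal N ?_ ?_
      · rintro _ ⟨B, hB, rfl⟩
        exact N.le_topologicalClosure ⟨A * B, mul_mem hA hB, rfl⟩
      · exact N.isClosed_topologicalClosure.preimage A.continuous
    exact fun z hz => h1 hz
  rcases hN with h | h
  · exfalso
    have h1 : x ∈ N.topologicalClosure :=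
      N.le_topologicalClosure ⟨1, one_mem _, rfl⟩
    rw [h] at h1
    exact hx ((Submodule.mem_bot ℂ).1 h1)
  · have h1 : y ∈ closure (N : Set H) := by
      have h2 : y ∈ N.topologicalClosure := by rw [h]; trivial
      exact h2
    obtain ⟨z, ⟨A, hA, hz⟩, hd⟩ := Metric.mem_closure_iff.1 h1 ε hε
    refine ⟨A, hA, ?_⟩
    rw [hz, ← dist_eq_norm, dist_comm]
    exact hd

end Vale.Agent.Results.P131.TransitiveCommutant
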